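import Vale.Agent.P201.Hnn
import Vale.Agent.P201.Ore

/-!
Group algebras of multiple HNN extensions and amalgams of free groups, and of amalgams of
bi-ordered groups over free, abelian or slowly growing subgroups, are stably finite.
-/

namespace Vale.Agent.Results.P194.AmalgamsStablyFinite

open Monoid
open scoped Pointwise
open Vale.Agent

theorem result :
    (∀ (K : Type) [Field K] (X κ : Type) (C : κ → Subgroup (FreeGroup X))
      (φ : ∀ k, ↥(C k) →* FreeGroup X), (∀ k, Function.Injective (φ k)) →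
        IsStablyFiniteRing (MonoidAlgebra K (PresentedGroup (Set.range fun p : Σ k, ↥(C k) =>
          FreeGroup.of (Sum.inr p.1 : X ⊕ κ) * FreeGroup.map Sum.inl (p.2 : FreeGroup X)
            * (FreeGroup.of (Sum.inr p.1))⁻¹ * (FreeGroup.map Sum.inl (φ p.1 p.2))⁻¹)))) ∧
    (∀ (K : Type) [Field K] (ι : Type) [Nonempty ι] (X : ι → Type) (H : Type) [Group H]
      (φ : ∀ i, H →* FreeGroup (X i)), (∀ i, Function.Injective (φ i)) →
        IsStablyFiniteRing (MonoidAlgebra K (PushoutI φ))) ∧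
    (∀ (K : Type) [Field K] (ι : Type) [Nonempty ι] (G : ι → Type) [∀ i, Group (G i)]
      [∀ i, LinearOrder (G i)] [∀ i, MulLeftMono (G i)] [∀ i, MulRightMono (G i)]
      (α : Type) (φ : ∀ i, FreeGroup α →* G i), (∀ i, Function.Injective (φ i)) →
        IsStablyFiniteRing (MonoidAlgebra K (PushoutI φ))) ∧
    ∀ (K : Type) [Field K] (ι : Type) [Nonempty ι] (G : ι → Type) [∀ i, Group (G i)]
      [∀ i, LinearOrder (G i)] [∀ i, MulLeftMono (G i)] [∀ i, MulRightMono (G i)]
      (H : Type) [Group H] [DecidableEq H],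
      ((∀ a b : H, a * b = b * a) ∨ ∀ S : Finset H, ∃ n : ℕ, (S ^ n).card < 2 ^ n) →
      ∀ (φ : ∀ i, H →* G i), (∀ i, Function.Injective (φ i)) →
        IsStablyFiniteRing (MonoidAlgebra K (PushoutI φ)) := by
  refine ⟨fun K _ X κ C φ hφ => ?_, fun K _ ι _ X H _ φ hφ => ?_,
    fun K _ ι _ G _ _ _ _ α φ hφ => ?_, fun K _ ι _ G _ _ _ _ H _ _ hH φ hφ => ?_⟩
  · exact (P201.nice_free_hnn (K := K) C φ hφ).2
  · exact (P201.nice_free_amalgam X φ hφ).2
  · exact (P201.nice_pushout φ hφ).2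
  · exact (P201.nice_pushout_smallGrowth hH φ hφ).2

end Vale.Agent.Results.P194.AmalgamsStablyFinite
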