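import Mathlib
import Vale.Agent.P194.IndicableClasses

namespace Vale.Agent.Results.P194.IndicableKernelStablyFinite

open Vale.Agent.P194

universe u v

/-- Stable finiteness passes through locally `p`-indicable kernels, in particular through
locally indicable and locally residually-`p` ones, and is a local property. -/
theorem result :
    (∀ (K : Type u) [Field K] (p : ℕ) [Fact p.Prime] [CharP K p] (G : Type v) [Group G]
      (N : Subgroup G) [N.Normal],
      (LocallyPIndicable p N ∨ LocallyResiduallyP p N) →
      IsStablyFiniteRing (MonoidAlgebra K (G ⧸ N)) →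
        IsStablyFiniteRing (MonoidAlgebra K G)) ∧
    (∀ (G : Type v) [Group G] (N : Subgroup G) [N.Normal],
      (LocallyIndicableSub N ∨ (∀ p : ℕ, p.Prime → LocallyPIndicable p N) ∨
        (∀ p : ℕ, p.Prime → LocallyResiduallyP p N) ∨
        (∃ α : Type v, Nonempty (FreeGroup α ≃* N)) ∨
        (N ≤ Subgroup.center G ∧ ∀ x ∈ N, ∀ n : ℕ, n ≠ 0 → x ^ n = 1 → x = 1)) →
      ((∀ (F : Type u) [Field F], IsStablyFiniteRing (MonoidAlgebra F (G ⧸ N))) ∨
        IsSofic (G ⧸ N)) →
        ∀ (K : Type u) [Field K], IsStablyFiniteRing (MonoidAlgebra K G)) ∧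
    (∀ (K : Type u) [Field K] (G : Type v) [Group G],
      (∀ S : Finset G, ∃ (H : Type v) (_ : Group H) (φ : G → H), Set.InjOn φ S ∧
        (∀ g ∈ S, ∀ g' ∈ S, φ (g * g') = φ g * φ g') ∧
        IsStablyFiniteRing (MonoidAlgebra K H)) →
        IsStablyFiniteRing (MonoidAlgebra K G)) := by
  refine ⟨fun K _ p _ _ G _ N _ hN hQ => ?_, fun G _ N _ hN hQ K _ => ?_,
    fun K _ G _ h => isStablyFiniteRing_of_local h⟩
  · have := hQ
    refine isStablyFiniteRing_of_locallyPIndicable p N ?_
    rcases hN with hN | hN
    · exact hN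
    · exact locallyPIndicable_of_locallyResiduallyP hN
  · refine isStablyFiniteRing_of_locallyPIndicable_all N (fun p hp => ?_) (fun F _ => ?_) K
    · have : Fact p.Prime := ⟨hp⟩
      rcases hN with hN | hN | hN | ⟨α, ⟨e⟩⟩ | ⟨hc, htf⟩
      · exact locallyPIndicable_of_locallyIndicable hN p
      · exact hN p hp
      · exact locallyPIndicable_of_locallyResiduallyP (hN p hp)
      · exact locallyPIndicable_of_locallyResiduallyP (locallyResiduallyP_of_residuallyP
          (residuallyP_of_equiv e (residuallyP_freeGroup p α)))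
      · exact locallyPIndicable_of_locallyResiduallyP (locallyResiduallyP_of_central hc htf p)
    · rcases hQ with hQ | hQ
      · exact hQ F
      · exact hQ.isStablyFiniteRing F

end Vale.Agent.Results.P194.IndicableKernelStablyFinite
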